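import Vale.Agent.P011UHB.E6
import Vale.Agent.P011UQ.Asm
import Vale.Agent.P011UIV.Main
import Vale.Agent.P011UGC5.Lv
import Vale.Agent.P011UP.Lev

/-!
The Tits cocycle of inner forms of type `E₆`.
-/

set_option autoImplicit false
set_option linter.all false

namespace Vale.Agent.P011UT3

open Matrix Vale.Agent.P011L Vale.Agent.P011LD Vale.Agent.P011LQ Vale.Agent.P183CH
  Vale.Agent.P183CH.RG Vale.Agent.P011U Vale.Agent.P011UQ Vale.Agent.P011UHB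

/-- three times the inverse of the Cartan matrix -/
def iv : Matrix (Fin 6) (Fin 6) ℤ := !![4, 3, 5, 6, 4, 2; 3, 6, 6, 9, 6, 3; 5, 6, 10, 12, 8, 4;
  6, 9, 12, 18, 12, 6; 4, 6, 8, 12, 10, 5; 2, 3, 4, 6, 5, 4]

theorem iv1 : ∀ a c, ∑ x, iv a x * CartanMatrix.E₆ x c =
    (if c = a then 3 else 0) - if c = a then 0 else 0 := by decide

theorem iv2 : ∀ a b c, a ≠ 1 ∧ a ≠ 3 → ∑ x, (iv b x - iv 0 a * iv 0 b * iv a x) / 3 *
    CartanMatrix.E₆ x c = (if c = b then 1 else 0) - if c = a then iv 0 a * iv 0 b else 0 := by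
  decide

theorem ex_pr {R : RS} {e : Fin R.r ≃ Fin 6} (t : Ty R CartanMatrix.E₆ e) {v : Fin 6 → ℤ}
    {i i₀ : Fin R.r} {n m : ℤ} (h : ∀ c, ∑ x, v x * CartanMatrix.E₆ x c =
      (if c = e i then n else 0) - if c = e i₀ then m else 0) :
    ∃ γ : R.Q, ∀ j, R.pr γ j = (if j = i then n else 0) - if j = i₀ then m else 0 :=
  ⟨fun a => v (e a), fun b => by
    have := h (e b)
    rw [← e.sum_comp] at this
    simpa only [RS.pr_eq, t _ _, e.apply_eq_iff_eq] using this⟩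

theorem chi0_ev {R : RS} {K : Type} [Field K] {γ : R.Q} (s : Fin R.r → Kˣ) {i i₀ : Fin R.r}
    {n m : ℤ} (h : ∀ j, R.pr γ j = (if j = i then n else 0) - if j = i₀ then m else 0) :
    chi0 R K γ s * s i₀ ^ m = s i ^ n := by
  have e : ∀ i (m : ℤ), ∏ j, s j ^ (if j = i then m else 0) = s i ^ m := fun i m => by
    rw [Finset.prod_eq_single i (fun j _ a => by simp [a]) (by simp), if_pos rfl]
  simp only [chi0_apply, h, _root_.zpow_sub, Finset.prod_mul_distrib, Finset.prod_inv_distrib, e,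
    inv_mul_cancel_right]

variable {k K : Type} [Field k] [Field K] [Algebra k K] {D : Chev} {T : Tw k (D.grp K)}
  {g : (K ≃ₐ[k] K) → D.grp K} {c : (K ≃ₐ[k] K) → Fin D.R.r → Kˣ}
  {z : (K ≃ₐ[k] K) → (K ≃ₐ[k] K) → Fin D.R.r → Kˣ}

variable (T g c z) in
/-- the Tits cocycle of an inner form -/
structure Tc : Prop where
  std : ∀ σ, Std (GG D K) (T.a σ) σ (g σ) (c σ) 1
  og : Op ⊤ fun τ => g τ = 1
  oc : Op ⊤ fun τ => c τ = 1
  co : P011UQ.Co 1 z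
  tz : ∀ σ τ, tz T g σ τ = GG_ok.hT (z σ τ)
  mul : ∀ σ τ (γ : D.R.Q), ∏ j, c (σ * τ) j ^ γ j =
    chi0 D.R K γ (z σ τ) * um σ (∏ j, c τ j ^ γ j) * ∏ j, c σ j ^ γ j

theorem tc_of [Normal k K] (hD : SC D) (hi : In1 T ∅) {π} (h : NF T g c π) : ∃ z, Tc T g c z := by
  obtain rfl : π = fun _ => 1 := funext fun σ => by
    obtain ⟨g', c', h'⟩ := hi σ fun _ e => e.elim
    exact (std_uniq GG_ok (Chev.R_ok D) h' (h.1 σ) (map_one σ)).1
  obtain ⟨p, z, b1, b2, b3, b4, b5⟩ := nf_co hD h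
  obtain rfl : p = 1 := MonoidHom.ext b1
  refine ⟨z, h.1, P011UIV.nf_one h, b5, b2, b3, fun σ τ γ => ?_⟩
  simp only [b4, mul_zpow, Finset.prod_mul_distrib, Equiv.Perm.one_apply, chi0_prod, map_prod,
    map_zpow]
  rw [mul_assoc, mul_comm (∏ j, c σ j ^ γ j), ← chi0_prod]

theorem Tc.bd (h : Tc T g c z) {e : Fin D.R.r ≃ Fin 6} (t : Ty D.R CartanMatrix.E₆ e)
    {i : Fin D.R.r} (hi : i ∈ J0 e) {Δ : Set (K ≃ₐ[k] K)} (hB : Bd z Δ i) (j : Fin D.R.r) :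
    Bd z Δ j := by
  obtain ⟨γ, hγ⟩ := ex_pr t (i := j) fun c => iv2 (e i) (e j) c hi
  obtain ⟨μ, h1, h2⟩ := hB
  refine ⟨fun σ => (∏ j, c σ j ^ γ j) * μ σ ^ (iv 0 (e i) * iv 0 (e j)), fun σ x τ y => ?_,
    (h.oc.and h2).imp fun σ _ a x => by simp [a.1, a.2 x]⟩
  beta_reduce
  rw [h.mul, ← h1 σ x τ y, ← zpow_one (z σ τ j), ← chi0_ev (z σ τ) hγ, map_mul (um σ),
    map_zpow (um σ), mul_zpow, mul_zpow, mul_mul_mul_comm (chi0 D.R K γ _), mul_mul_mul_comm]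

theorem lift_bd [Normal k K] (h : ∀ σ, Std (GG D K) (T.a σ) σ (g σ) (c σ) 1)
    (h0 : Op ⊤ fun τ => g τ = 1) (hz : ∀ σ τ, tz T g σ τ = GG_ok.hT (z σ τ))
    (hB : ∀ j, Bd z Set.univ j) : Lift T := by
  choose μ h1 h2 using hB
  refine lift_of (π := fun _ => 1) (fun σ => std_mul GG_ok (Chev.R_ok D) (h σ) fun j => μ j σ)
    (fun σ τ => ?_) ((h0.and (Op.all h2)).imp fun σ _ e => by
      simp [e.1, e.2 _ trivial, ← Pi.one_def])
  have e2 := P011UQ.std_hT GG_ok (ψ := (T.a σ).toMonoidHom) (σ := (σ : K →+* K)) (h σ)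
    fun j => μ j τ
  have e3 : z σ τ * (fun j => um σ (μ j τ)) * (fun j => μ j σ) = fun j => μ j (σ * τ) :=
    funext fun j => h1 j σ trivial τ trivial
  have e4 := congrArg GG_ok.hT e3
  rw [map_mul, map_mul, ← hz] at e4
  show (g (σ * τ) * GG_ok.hT fun j => μ j (σ * τ))⁻¹ * (T.a σ).toMonoidHom (g _ * _) * _ = 1
  rw [map_mul, e2, ← e4, tz]
  exact (by intros; group : ∀ a b c d e : D.grp K,
    (a * (a⁻¹ * b * c * d * e))⁻¹ * (b * (c * d * c⁻¹)) * (c * e) = 1) _ _ _ _ _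

theorem lf3 (bq : BQ3) : LF3 := by
  intro k K _ _ _ _ D hk hD T hn e t hi
  have : IsGalois k K := IsSepClosure.isGalois
  have := glob_inf hk
  obtain ⟨F, _, _, _, _⟩ := hk.resolve_left hn
  have := P011.H271.GFF.mk' F k
  obtain ⟨g, c, π, h⟩ := P011UC.nfx P011UB.aut k K D hD T
  obtain ⟨z, h⟩ := tc_of hD hi h
  obtain ⟨n, _, _, _, A, d1, d2⟩ := pa_of h.co
  obtain ⟨γ, hγ⟩ := ex_pr t (i := e.symm 0) (iv1 (e (e.symm 0)))
  obtain ⟨L, a1, a2, a3⟩ := bq k K n (A (e.symm 0)) (fun σ => ((∏ j, c σ j ^ γ j)⁻¹ : Kˣ))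
    ⟨fun σ _ => Units.ne_zero _, fun σ _ τ _ => ⟨_, d1 _ σ rfl τ rfl, by
      have a := chi0_ev (z σ τ) hγ
      rw [zpow_zero, mul_one] at a
      have b : (∏ j, c σ j ^ γ j)⁻¹ * um σ (∏ j, c τ j ^ γ j)⁻¹ =
          z σ τ (e.symm 0) ^ 3 * (∏ j, c (σ * τ) j ^ γ j)⁻¹ := by
        rw [h.mul, a, map_inv, zpow_ofNat, mul_assoc, mul_inv, mul_inv_cancel_left, mul_inv,
          mul_comm]
      exact congrArg Units.val b⟩,
    (h.oc.and d2).imp fun σ _ a => ⟨1, by simpa using a.2 _, by simp [a.1]⟩⟩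
  refine ⟨L, a1, a2, fun T' r => ?_⟩
  have := Normal.tower_top_of_normal k L K
  have b := h.bd t (i := e.symm 0) (by simp [J0]) (bd_of (Δ := L.fixingSubgroup)
    (fun σ _ τ _ => d1 _ σ rfl τ rfl) (d2.imp fun _ _ x => x _)
    (a3.mono fun σ x => (L.mem_fixingSubgroup_iff σ).1 x))
  have f : ∀ σ : K ≃ₐ[L] K, σ.restrictScalars k ∈ L.fixingSubgroup := fun σ =>
    (L.mem_fixingSubgroup_iff _).2 fun x hx => σ.commutes ⟨x, hx⟩
  obtain ⟨S, hS⟩ := h.og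
  refine lift_bd (g := fun σ => g (σ.restrictScalars k)) (c := fun σ => c (σ.restrictScalars k))
    (z := fun σ τ => z (σ.restrictScalars k) (τ.restrictScalars k))
    (fun σ => by rw [r]; exact h.std (σ.restrictScalars k))
    ⟨S, fun σ _ a => hS (σ.restrictScalars k) trivial a⟩
    (fun σ τ => by rw [tz, r]; exact h.tz (σ.restrictScalars k) (τ.restrictScalars k)) fun j => ?_
  obtain ⟨μ, h1, S', h2⟩ := b j
  exact ⟨fun σ => μ (σ.restrictScalars k), fun σ _ τ _ => h1 _ (f σ) _ (f τ), S',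
    fun σ _ a _ => h2 (σ.restrictScalars k) trivial a (f σ)⟩

theorem tj0 : TJ0 := by
  intro k K _ _ _ _ _ D hD T e t hi J hJ
  have : IsGalois k K := IsSepClosure.isGalois
  have hR := Chev.R_ok D
  refine or_iff_not_imp_right.2 fun hn => ?_
  obtain ⟨i, h1, h2⟩ := Set.not_subset.1 hn
  obtain ⟨T', e1, g, c, π, h, h3⟩ := P011UP.lev (P011UC.nfx P011UB.aut) k K D hD T J hJ
  obtain ⟨e2, -, e3⟩ := (P011UIV.inv k K D hD T).1 T' e1
  obtain ⟨z, h⟩ := tc_of hD ((e3 ∅).2.1 hi) h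
  refine ((P011UIV.inv k K D hD T').1 T e2).2.1 (lift_bd h.std h.og h.tz (h.bd t h1
    ⟨1, fun σ _ τ _ => ?_, ∅, fun _ _ _ _ => rfl⟩))
  have := mul_mem (mul_mem (inv_mem (h3 (σ * τ)).1) (h3 σ).1)
    (P011UP.std_X GG_ok (h.std σ) hR (S' := {γ | D.R.In J γ}) (fun _ a _ => a) (h3 τ).1)
  rw [show (g (σ * τ))⁻¹ * g σ * ((g σ)⁻¹ * T'.a σ (g τ) * g σ) = tz T' g σ τ by
    rw [tz]; group, h.tz] at this
  simp [of_TJ hD (P011UGC5.TJ_of GG_ok hR this (GG_ok.hT_mem _)) h2]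

end Vale.Agent.P011UT3
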